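import Crest.Agent.X212.Add68.Exc
import Crest.Agent.X212.Map77.S0
import Crest.Agent.X212.Cut71.Hf
import Crest.Agent.X212.Pb50.End
import Crest.Agent.X212.Pb50.Pt
import Crest.Agent.X212.Mod61.Hs

-- ▼ part X212/Add68/Pw
section

/-!
# Row 212, SW-ADD (helper68): the linearisation at function level, and on the ends
-/

set_option autoImplicit false
set_option linter.unusedSectionVars false
noncomputable section
open scoped Manifold ContDiff Topology InnerProductSpace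
open MeasureTheory Set Function Filter

namespace Crest.Agent.X212.Add68
open An Sob92 Cyf70 Sw Sw.En3 Map77.S Pb50 Cut71
open Map77 (f2 s2 ext2 ps)
open M (Mf pm)

variable {κ lam ν : Type} [Fintype κ] [Fintype lam] [Fintype ν] [DecidableEq ν]
  {X X' X'' : Mf 4} {nc nc' nc'' : ℕ}

/-- `z` is the value at `x` of the linearisation at `c` on `u` -/
structure Pw (b : Bg X.I X.M κ lam ν nc) (τ : Pt X.M κ ν nc) (c : Sw.Cfg X.M κ ν)
    (u : X.M → Cf κ ν) (x : X.M) (z : Ef κ ν) : Prop where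
  D : HasDerivAt (fun r => b.eD (vr c u r) x - τ.D (vr c u r) x) (f2 _ _ (f2 _ _ z)) 0
  C : HasDerivAt (fun r => b.eC (vr c u r) x - τ.C (vr c u r) x) (s2 _ _ (f2 _ _ z)) 0
  G : s2 _ _ z = lG b c u x

section pw
variable {b : Bg X.I X.M κ lam ν nc} {τ : Pt X.M κ ν nc} {c : Sw.Cfg X.M κ ν}
  {u : X.M → Cf κ ν} {x : X.M} {z z' : Ef κ ν}
  {b' : Bg X'.I X'.M κ lam ν nc'} {τ' : Pt X'.M κ ν nc'} {c' : Sw.Cfg X'.M κ ν}
  {u' : X'.M → Cf κ ν} {φ : OpenPartialHomeomorph X.M X'.M}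

theorem Pw.unique (h : Pw b τ c u x z) (h' : Pw b τ c u x z') : z = z' :=
  ext2 (ext2 (h.D.unique h'.D) (h.C.unique h'.C)) (h.G.trans h'.G.symm)

theorem Pw.zero : Pw b τ c (fun _ => 0) x 0 := by
  have e : ∀ r, vr c (fun _ => 0) r = c := fun r => by simp [vr]
  refine ⟨?_, ?_, ?_⟩
  · simp only [e, map_zero]; exact hasDerivAt_const _ _
  · simp only [e, map_zero]; exact hasDerivAt_const _ _
  · simp [lG, Pre.D_def, dv_const]

theorem Pw.lit (h : b.Lit b' φ) (hv : b.F.IsVol) (hv' : b'.F.IsVol) (hx : x ∈ φ.source)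
    (e : ∀ᶠ y in 𝓝 x, At φ c c' y ∧ u y = u' (φ y))
    (eD : ∀ r, τ.D (vr c u r) x = τ'.D (vr c' u' r) (φ x))
    (eC : ∀ r, τ.C (vr c u r) x = τ'.C (vr c' u' r) (φ x)) (k : Pw b' τ' c' u' (φ x) z) :
    Pw b τ c u x z := by
  have a : ∀ r, ∀ᶠ y in 𝓝 x, At φ (vr c u r) (vr c' u' r) y := fun r => e.mono fun y hy =>
    ⟨fun i => by simp only [vr, hy.1.1, hy.2], by simp only [vr, hy.1.2, hy.2]⟩
  refine ⟨?_, ?_, k.G.trans ?_⟩
  · simpa only [eD, eD_φ h hx (a _)] using k.D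
  · simpa only [eC, eC_φ h hx (a _)] using k.C
  · rw [lG, lG, h.w, h.J, e.self_of_nhds.1.2, e.self_of_nhds.2]
    refine congrArg (· + _) (Finset.sum_congr rfl fun i _ => ?_)
    rw [(rel h).dv hx hv hv', (rel h).D hx i (u' := fun y => co i (u' y))
      (e.mono fun y hy => by rw [hy.2])]

end pw

/-! ### literal maps -/

section lit
variable {b : Bg X.I X.M κ lam ν nc} {b' : Bg X'.I X'.M κ lam ν nc'}
  {φ : OpenPartialHomeomorph X.M X'.M} (h : b.Lit b' φ)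
include h

theorem co_p1 : Co φ b.p1 b'.p1 := fun x hx => by simp only [Bg.p1, h.P _ _ x hx]

theorem co_pC : Co φ (pC b) (pC b') := fun x hx => by
  rw [pC, pC, ps, ps, co_p1 h x hx, pp_φ h hx]

theorem co_pE : Co φ (pE b) (pE b') := fun x hx => by
  rw [pE, pE, ps, ps, ps, ps, p2_φ h hx, Bg.pm, Bg.pm, vol_φ h hx, h.p x hx]

theorem co_σ (c : Sw.Cfg X.M κ ν) (c' : Sw.Cfg X'.M κ ν) (a : Option κ) :
    Co φ ((full b c).σ a) ((full b' c').σ a) := fun x hx => by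
  show (pE b x).comp ((σF b a x).comp (pC b x)) =
    (pE b' (φ x)).comp ((σF b' a (φ x)).comp (pC b' (φ x)))
  rw [co_pC h x hx, co_pE h x hx]
  simp only [σF, h.ρ a x hx, h.P _ _ x hx]

theorem lit_trans {b'' : Bg X''.I X''.M κ lam ν nc''} {ψ} (h' : b'.Lit b'' ψ)
    (h1 : φ.source = univ) (h2 : φ.target = univ) : b.Lit b'' (φ.trans ψ) := by
  have m : Measurable φ := (continuousOn_univ.1 (h1 ▸ φ.continuousOn)).measurable
  refine ⟨⟨h'.iso.sm.comp (h.iso.sm.mono inter_subset_left) fun x hx => hx.2,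
    h.iso.sm'.comp (h'.iso.sm'.mono inter_subset_left) fun x hx => hx.2, fun a x hx => ?_, ?_⟩,
    fun i j x hx => (h'.P i j _ hx.2).trans (h.P i j x hx.1),
    fun i j k l x hx => (h'.o i j k l _ hx.2).trans (h.o i j k l x hx.1), h'.J.trans h.J,
    h'.w.trans h.w, fun x hx => (h'.p _ hx.2).trans (h.p x hx.1),
    fun i x hx => (h'.ρ i _ hx.2).trans (h.ρ i x hx.1),
    fun i x hx => (h'.A i _ hx.2).trans (h.A i x hx.1),
    fun x hx => (h'.ms _ hx.2).trans (h.ms x hx.1), fun x hx => (h'.om _ hx.2).trans (h.om x hx.1)⟩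
  · have a1 := (iso_smAt h.iso hx.1).mdifferentiableAt (by simp)
    have a2 := (iso_smAt h'.iso (show φ x ∈ _ from hx.2)).mdifferentiableAt (by simp)
    rw [OpenPartialHomeomorph.coe_trans, mfderiv_comp x a2 a1]
    exact (congrArg _ (h.iso.e a x hx.1)).trans (h'.iso.e a _ hx.2)
  · have a1 := h.iso.μ
    rw [h1, h2, Measure.restrict_univ, Measure.restrict_univ] at a1
    have a2 : AEMeasurable ψ (b'.F.μ.restrict ψ.source) :=
      ψ.continuousOn.aemeasurable ψ.open_source.measurableSet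
    have a3 : (b.F.μ.restrict (φ ⁻¹' ψ.source)).map φ = b'.F.μ.restrict ψ.source := by
      rw [← a1, Measure.restrict_map m ψ.open_source.measurableSet]
    rw [OpenPartialHomeomorph.trans_source, OpenPartialHomeomorph.trans_target, h1, h2, univ_inter,
      preimage_univ, inter_univ, ← h'.iso.μ, ← a3, OpenPartialHomeomorph.coe_trans,
      AEMeasurable.map_map_of_aemeasurable (a3 ▸ a2) m.aemeasurable]

end lit

/-! ### the cylinder -/

variable {e : En3 κ lam ν}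

variable (e) in
/-- the fixed terms on the cylinder -/
def τ0 : Pt e.Z.M κ ν 0 := En3.pt (fun _ : Empty => none) 0

/-- the linearisation on the cylinder -/
abbrev PZ (c : e.ZC) (u : e.Y.M × ℝ → Cf κ ν) (x : e.Y.M × ℝ) (z : Ef κ ν) : Prop :=
  Pw (X := e.Z) e.cyl (τ0 e) c u x z

theorem slab {Y : Type} [TopologicalSpace Y] {p : Y × ℝ → Prop} {x : Y × ℝ}
    (h : ∀ᶠ r in 𝓝 x.2, ∀ y, p (y, r)) : ∀ᶠ y in 𝓝 x, p y :=
  (continuous_snd.continuousAt.eventually h).mono fun y hy => hy y.1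

theorem nd_slab {s : Bool} {p : e.Y.M × ℝ → Prop} (h : ∀ᶠ x in nd e.Y.M s, p x) :
    ∀ᶠ x in nd e.Y.M s, ∀ᶠ r in 𝓝 x.2, ∀ y, p (y, r) := by
  obtain ⟨T, -, hT⟩ := nd_basis.eventually_iff.1 h
  exact nd_basis.eventually_iff.2 ⟨T, trivial, fun x hx =>
    ((isOpen_lt continuous_const (by fun_prop : Continuous fun r => pm s * r)).eventually_mem
      hx).mono fun r hr y => hT hr⟩

theorem nd_sh {s : Bool} {p : e.Y.M × ℝ → Prop} (δ : ℝ) (h : ∀ᶠ x in nd e.Y.M s, p x) :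
    ∀ᶠ x in nd e.Y.M s, p (x.1, x.2 + δ) := by
  obtain ⟨T, -, hT⟩ := nd_basis.eventually_iff.1 h
  exact nd_basis.eventually_iff.2 ⟨T - pm s * δ, trivial, fun x hx => hT (by
    have : T - pm s * δ < pm s * x.2 := hx
    show T < pm s * (x.2 + δ)
    linarith)⟩

theorem PZ.sh (hv : e.D.Z.IsVol) {c c' : e.ZC} {u u' : e.Y.M × ℝ → Cf κ ν} {x : e.Y.M × ℝ} {δ : ℝ}
    {z : Ef κ ν} (h : ∀ᶠ r in 𝓝 x.2, ∀ y, At (sH e δ) c c' (y, r) ∧ u (y, r) = u' (y, r + δ))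
    (k : PZ c' u' (x.1, x.2 + δ) z) : PZ c u x z := by
  have h0 := h.self_of_nhds
  have a : ∀ r, sl (vr c u r) x.2 = sl (vr c' u' r) (x.2 + δ) := fun r => by
    refine YC.ext (funext fun i => funext fun y => ?_) (funext fun y => ?_)
    · simp only [sl, vr, (h0 y).1.1, (h0 y).2, sH_apply]
    · simp only [sl, vr, (h0 y).1.2, (h0 y).2, sH_apply]
  refine Pw.lit (X := e.Z) (X' := e.Z) (sH_lit δ) hv hv trivial (slab h) (fun r => ?_) (fun r => ?_) k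
  · exact congrArg₂ (fun v w => e.b (nm v) • e.m.ρ none x.1 w) (a r)
      (congrFun (congrArg YC.Φ (a r)) x.1)
  · show -deriv e.f (hol (sl (vr c u r) x.2)) • e.ζ x.1 + 0 =
      -deriv e.f (hol (sl (vr c' u' r) (x.2 + δ))) • e.ζ x.1 + 0
    rw [a]

section ends
variable {S S' M M' : Type} (j : S → M → Cf κ ν) (A : S → M → Ef κ ν)
  (j' : S' → M' → Cf κ ν) (A' : S' → M' → Ef κ ν)

/-- far out on the end `ψ` the operator `A` is the linearisation at `v` -/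
def EF (ψ : e.Y.M × ℝ → M) (s : Bool) (v : e.YC) : Prop :=
  ∀ᶠ x in nd e.Y.M s, ∀ u, PZ (fz v) (fun z => j u (ψ z)) x (A u (ψ x))

/-- the operators correspond at `x` -/
def Mt (φ : M → M') (f : M → ℝ) (x : M) : Prop :=
  ∀ u w, (∀ x, j w x = f x • j' u (φ x)) → A w x = f x • A' u (φ x)

variable {j A j' A'} {ψ : e.Y.M × ℝ → M} {ψ' : e.Y.M × ℝ → M'} {s : Bool} {v : e.YC}
  {φ : M → M'} {f : M → ℝ} (hv : e.D.Z.IsVol)
include hv

theorem EF.zero (h : EF j A ψ s v) (hf : ∀ᶠ x in nd e.Y.M s, f (ψ x) = 0) :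
    ∀ᶠ x in nd e.Y.M s, Mt j A j' A' φ f (ψ x) := by
  filter_upwards [h, nd_slab hf] with x h1 h2 u w k
  rw [h2.self_of_nhds x.1, zero_smul]
  exact (h1 w).unique (PZ.sh hv (δ := 0) (c' := fz v) (u' := fun _ => 0) (h2.mono fun r hr y =>
    ⟨⟨fun i => by cases i <;> rfl, rfl⟩, by rw [k, hr, zero_smul]⟩) Pw.zero)

theorem EF.one (h : EF j A ψ s v) (h' : EF j' A' ψ' s v) {δ : ℝ}
    (hf : ∀ᶠ x in nd e.Y.M s, f (ψ x) = 1 ∧ φ (ψ x) = ψ' (x.1, x.2 + δ)) :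
    ∀ᶠ x in nd e.Y.M s, Mt j A j' A' φ f (ψ x) := by
  filter_upwards [h, nd_sh δ h', nd_slab hf] with x h1 h3 h2 u w k
  rw [(h2.self_of_nhds x.1).1, (h2.self_of_nhds x.1).2, one_smul]
  exact (h1 w).unique (PZ.sh hv (c' := fz v) (h2.mono fun r hr y =>
    ⟨⟨fun i => by cases i <;> rfl, rfl⟩, by rw [k, (hr y).1, (hr y).2, one_smul]⟩) (h3 u))

end ends

theorem far_cyl {p : e.Y.M × ℝ → Prop} (h : ∀ s, ∀ᶠ x in nd e.Y.M s, p x) :
    ∃ C, IsCompact C ∧ ∀ x ∉ C, p x := by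
  obtain ⟨T, -, hT⟩ := nd_basis.eventually_iff.1 (h true)
  obtain ⟨T', -, hT'⟩ := nd_basis.eventually_iff.1 (h false)
  refine ⟨univ ×ˢ Icc (-T') T, isCompact_univ.prod isCompact_Icc, fun x hx => ?_⟩
  rcases lt_or_ge T x.2 with k | k
  · exact hT (by simpa [pm] using k)
  · exact hT' (by
      have : x.2 < -T' := lt_of_not_ge fun k' => hx ⟨trivial, k', k⟩
      show T' < pm false * x.2
      simp only [pm, Bool.false_eq_true, if_false]; linarith)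

theorem far_ends {N : Type} [Fintype N] {e : N → En3 κ lam ν} {P : Pz X nc e} (hP : P.OK)
    {p : X.M → Prop} (h : ∀ i s, ∀ K ∈ P.nk i, K.Inf s → ∀ᶠ x in nd (e i).Y.M s, p (K.ψ x)) :
    ∃ C, IsCompact C ∧ ∀ x ∉ C, p x := by
  have h1 : ∀ q : N × Bool, ∃ T : ℝ, ∀ K ∈ P.nk q.1, K.Inf q.2 → ∀ x ∈ univ ×ˢ K.far q.2 T,
      p (K.ψ x) := fun ⟨i, s⟩ => by
    by_cases hK : ∃ K ∈ P.nk i, K.Inf s
    · obtain ⟨K, hK, hs⟩ := hK
      obtain ⟨T, -, hT⟩ := nd_basis.eventually_iff.1 (h i s K hK hs)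
      refine ⟨T, fun K' hK' _ x hx => ?_⟩
      obtain rfl := Option.mem_unique hK hK'
      exact hT hx.2.2
    · exact ⟨0, fun K h1 h2 => (hK ⟨K, h1, h2⟩).elim⟩
  choose T hT using h1
  obtain ⟨T', hT'⟩ := Finite.exists_le T
  refine ⟨_, hP.cpt T', fun z hz => ?_⟩
  simp only [Pz.core, mem_ofPred, not_forall, not_not] at hz
  obtain ⟨i, s, K, hK, hs, x, hx, rfl⟩ := hz
  exact hT (i, s) K hK hs x (far_mono K (hT' _) hx)

theorem ev_deep {b : Bg X.I X.M κ lam ν nc} (K : Nk e b) {s : Bool} (h : K.Inf s) (D : ℝ) :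
    ∀ᶠ x in nd e.Y.M s, x.2 ∈ K.deep D := by
  cases s
  · have hp : K.p = none := h
    refine nd_basis.eventually_iff.2 ⟨D - K.q.getD 0, trivial, fun x hx =>
      ⟨by simp [hp], fun a ha => ?_⟩⟩
    obtain ⟨a', ha', rfl⟩ := Option.mem_map.1 ha
    have : D - a' < -x.2 := by simpa [pm, show K.q = some a' from ha'] using hx
    linarith
  · have hq : K.q = none := h
    refine nd_basis.eventually_iff.2 ⟨K.p.getD 0 + D, trivial, fun x hx =>
      ⟨fun a ha => ?_, by simp [hq]⟩⟩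
    obtain ⟨a', ha', rfl⟩ := Option.mem_map.1 ha
    simpa [pm, show K.p = some a' from ha'] using hx

variable {d : Dt κ lam ν} {N : Type} [Fintype N] {ty : N → d.𝓔} {P : Pc d X nc ty}

/-- from a piece to the cylinder -/
theorem Pw.nk (hP : P.toPz.OK) {i : N} {K : Nk (d.e (ty i)) P.bg} (hK : K ∈ P.nk i)
    (hv : (d.e (ty i)).D.Z.IsVol) {c : Sw.Cfg X.M κ ν} {u : X.M → Cf κ ν} {x} (hx : x.2 ∈ K.deep 2)
    {z : Ef κ ν} (k : Pw P.bg (P.pt 0) c u (K.ψ x) z) : PZ (K.pb c) (fun y => u (K.ψ y)) x z :=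
  Pw.lit (X := (d.e (ty i)).Z) (nk_lit K) hv hP.vol (K.mem_src.2 (deep_J K two_pos hx))
    (.of_forall fun _ => ⟨At.pb _ _ _, rfl⟩)
    (fun r => (pt_ψ hP 0 (vr c u r) hK hx (by simp)).1.symm)
    (fun r => (pt_ψ hP 0 (vr c u r) hK hx (by simp)).2.symm) k

theorem ef_nk (hP : P.toPz.OK) {i : N} {K : Nk (d.e (ty i)) P.bg} (hK : K ∈ P.nk i) {s : Bool}
    (hs : K.Inf s) (hv : (d.e (ty i)).D.Z.IsVol) {c : Sw.Cfg X.M κ ν} {v : (d.e (ty i)).YC}
    (hc : ∀ᶠ x in nd _ s, At K.ψ (fz v) c x) {S : Type} {j : S → X.M → Cf κ ν}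
    {A : S → X.M → Ef κ ν} (h : ∀ u x, Pw P.bg (P.pt 0) c (j u) x (A u x)) : EF j A K.ψ s v := by
  filter_upwards [ev_deep K hs 2, nd_slab hc] with x h1 h2 u
  refine PZ.sh hv (δ := 0) (c' := K.pb c) (u' := fun y => j u (K.ψ y)) (h2.mono fun r hr y => ?_) ?_
  · simpa only [At, sH_apply, add_zero, and_true, Sw.Cfg.pb] using hr y
  · rw [add_zero]; exact (h u _).nk hP hK hv h1

end Crest.Agent.X212.Add68
end
end

-- ▼ part X212/Add68/NF
section

/-!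
# Row 212, SW-ADD (helper68): the normal form of the linearisation on a piece
-/

set_option autoImplicit false
set_option linter.unusedSectionVars false
noncomputable section
open scoped Manifold ContDiff Topology InnerProductSpace
open MeasureTheory Set Function Filter

namespace Crest.Agent.X212.Add68
open An An.Pre Sob92 Cyf70 Sw Sw.En3 Map77.S Pb50 Cut71 Prm93 Fred93
open Map77 (f2 s2 ext2 ps Tw Nc LH sumH)
open M (Mf pm)
open Module (finrank)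

section alg
variable {A B K R H H1 : Type} [NormedAddCommGroup A] [NormedSpace ℝ A] [NormedAddCommGroup B]
  [NormedSpace ℝ B] [NormedAddCommGroup K] [NormedSpace ℝ K] [FiniteDimensional ℝ K]
  [NormedAddCommGroup R] [NormedSpace ℝ R] [NormedAddCommGroup H] [NormedSpace ℝ H]
  [NormedAddCommGroup H1] [NormedSpace ℝ H1]

theorem fr_e {e : H →L[ℝ] A × B × K} {j : A × B × K →L[ℝ] H} (h1 : ∀ u, j (e u) = u)
    (h2 : ∀ v, e (j v) = (v.1, v.2.1, 0)) : Fred93.Fr e (-(finrank ℝ K : ℤ)) := by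
  have h3 : ∀ t : K, j (0, 0, t) = 0 := fun t => by rw [← h1 (j _), h2]; exact map_zero j
  have h4 : ∀ u, (e u).2.2 = 0 := fun u => by rw [← h1 u, h2]
  let U : (H × K) ≃L[ℝ] A × B × K := ContinuousLinearEquiv.equivOfInverse
    (e.coprod (ContinuousLinearMap.inr ℝ A _ ∘L ContinuousLinearMap.inr ℝ B K))
    (j.prod (ContinuousLinearMap.snd ℝ B K ∘L ContinuousLinearMap.snd ℝ A _))
    (fun x => Prod.ext (by simp [h1, h3]) (by simp [h4])) fun v => by simp [h2]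
  exact (((Fred93.Fr.equiv U).comp Fred93.Fr.inl).congr fun u => by simp [U]).cast (by ring)

theorem fr_j (U1 : H1 ≃L[ℝ] A × B) (U2 : H ≃L[ℝ] H1 × R) {j : (A × B × K) × R →L[ℝ] H}
    (hj : ∀ y, j y = U2.symm (U1.symm (y.1.1, y.1.2.1), (1 / 2 : ℝ) • y.2)) :
    Fred93.Fr j (finrank ℝ K) := by
  let f : H × K →L[ℝ] H1 × R := (U2 : H →L[ℝ] H1 × R) ∘L ContinuousLinearMap.fst ℝ H K
  let g : H × K →L[ℝ] A × B := (U1 : H1 →L[ℝ] A × B) ∘L ContinuousLinearMap.fst ℝ H1 R ∘L f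
  let U : ((A × B × K) × R) ≃L[ℝ] H × K := ContinuousLinearEquiv.equivOfInverse
    (j.prod (ContinuousLinearMap.snd ℝ B K ∘L ContinuousLinearMap.snd ℝ A _ ∘L
      ContinuousLinearMap.fst ℝ _ R))
    (((ContinuousLinearMap.fst ℝ A B ∘L g).prod ((ContinuousLinearMap.snd ℝ A B ∘L g).prod
      (ContinuousLinearMap.snd ℝ H K))).prod ((2 : ℝ) • ContinuousLinearMap.snd ℝ H1 R ∘L f))
    (fun x => by simp [f, g, hj, smul_smul]) fun v => by simp [f, g, hj, smul_smul]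
  exact ((Fred93.Fr.fst.comp (Fred93.Fr.equiv U)).congr fun u => by simp [U]).cast (by ring)

end alg

section tw
variable {X : Mf 4} {ι : Type} [Fintype ι]
  {V W : Type} [NormedAddCommGroup V] [InnerProductSpace ℝ V] [FiniteDimensional ℝ V]
  [NormedAddCommGroup W] [InnerProductSpace ℝ W] [FiniteDimensional ℝ W] {k : ℕ}
  {F G : An.Fr X.I X.M ι} (h : Tw F G) {A : Op X.M ι V W}
include h

theorem val_chg (hk : 4 ≤ k) {p : X.M → V →L[ℝ] V} (u : F.H k p) (x : X.M) :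
    G.val k p (chg k p h.cmp u) x = F.val k p u x := by
  have := FiniteDimensional.complete ℝ V
  refine H_eq (f := fun u => G.ev k p x (chg k p h.cmp u)) (g := fun u => F.ev k p x u)
    (by fun_prop) (by fun_prop) (fun u => ?_) u
  rw [chg_toH]
  exact (congrFun (val_toH (Sup.of_tame h.t1.choose_spec) hk u) x).trans
    (congrFun (val_toH h.sup hk u) x).symm

/-- the operator on the scale of `G` -/
def cj (L : F.H (k + 1) A.p →L[ℝ] F.H k A.q) : G.H (k + 1) A.p →L[ℝ] G.H k A.q :=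
  (chg k A.q h.cmp : F.H k A.q →L[ℝ] G.H k A.q) ∘L L ∘L
    ((chg (k + 1) A.p h.cmp).symm : G.H (k + 1) A.p →L[ℝ] F.H (k + 1) A.p)

theorem sy_cj (hA : Nc F.toPre G.P A) {L : F.H (k + 1) A.p →L[ℝ] F.H k A.q}
    (g : ∃ n, L = LH F.toPre G.toPre k A.p A.q A + F.incl (k + 1) k A.q ∘L n) :
    Sy G A k (cj h L) := by
  obtain ⟨n, rfl⟩ := g
  refine ⟨h.t1, (h.good hA).imp fun _ => And.right,
    (chg (k + 1) A.q h.cmp : F.H (k + 1) A.q →L[ℝ] G.H (k + 1) A.q) ∘L n ∘L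
      ((chg (k + 1) A.p h.cmp).symm : G.H (k + 1) A.p →L[ℝ] F.H (k + 1) A.p), ?_⟩
  ext1 u
  simp [cj, h.chg_LH hA, chg_incl h.cmp (Nat.le_succ k)]

theorem val_cj (hk : 4 ≤ k) (L : F.H (k + 1) A.p →L[ℝ] F.H k A.q) (u : Sec X.I A.p) (x : X.M) :
    G.val k _ (cj h L (G.toH _ _ u)) x = F.val k _ (L (Mod61.ofV F.toPre (k + 1) A.p u.1)) x := by
  have := FiniteDimensional.complete ℝ V
  rw [Mod61.ofV_eq h.sup (by omega) (val_toH h.sup (by omega) u), ← val_chg h hk]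
  simp only [cj, ContinuousLinearMap.comp_apply, ContinuousLinearEquiv.coe_coe, chg_symm, chg_toH]

end tw

variable {κ lam ν : Type} [Fintype κ] [Fintype lam] [Fintype ν] [DecidableEq ν]
  {X : Mf 4} {nc nr : ℕ}

/-- the gauge fixed linearisation at `c` has index `n` -/
def Nf (b : Bg X.I X.M κ lam ν nc) (τ : Pt X.M κ ν nc) (c : Sw.Cfg X.M κ ν) (k : ℕ) (n : ℤ) : Prop :=
  ∃ D : b.F.H (k + 1) (full b c).p →L[ℝ] b.F.H k (full b c).q, Sy b.F (full b c) k D ∧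
    Fred93.Fr D n ∧ ∀ u x, Pw b τ c u.1 x (b.F.val k _ (D (b.F.toH _ _ u)) x)

variable {d : Dt κ lam ν} {N : Type} [Fintype N] {ty : N → d.𝓔}
  {T : Type} [NormedAddCommGroup T] [NormedSpace ℝ T] [FiniteDimensional ℝ T]
  {s : Pz X 0 fun i => d.e (ty i)} {σ : Cel s nc nr T} {k : ℕ} {n : ℤ}

theorem fr_jE (σ : Cel s nc nr T) (k : ℕ) : Fred93.Fr (jE σ k) (2 * nc + nr) :=
  (fr_j (sumH s.bg.F.toPre k s.bg.pm s.bg.p2) (sumH s.bg.F.toPre k (ps s.bg.pm s.bg.p2) _)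
    (j := jE σ k) fun y => by
      rw [Map77.sumH_symm_apply, Map77.sumH_symm_apply, map_smul]; rfl).cast (by
    simp [Module.finrank_prod, Module.finrank_pi_fintype, Complex.finrank_real_complex]; ring)

theorem fr_Tc (h : Md σ) (hI : σ.Ind n) (hk : 7 ≤ k) (q : d.W →₀ ℝ) (y : σ.Pnt) :
    Fred93.Fr (Tc σ k q (σ.pt k y)) (2 * nc + nr + (n + -(finrank ℝ T : ℤ))) := by
  obtain ⟨r, hr, f⟩ := hI k hk q y
  obtain rfl : r = row σ k (σ.pt k y) := ContinuousLinearMap.ext fun v =>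
    val_injective (Sup.of_tame h.ok.site.bg.tame.choose_spec) (by omega)
      ((hr v).trans ((h.row k hk).2 y v).symm)
  exact (fr_jE σ k).comp (f.comp (fr_e (h.je k _ y.2.1).1 (h.je k _ y.2.1).2))

theorem nf_of (h : Md σ) (hk : 7 ≤ k) (q : d.W →₀ ℝ) (y : σ.Pnt)
    (f : Fred93.Fr (Tc σ k q (σ.pt k y)) n) :
    Nf (σ.P y.1.1).bg ((σ.P y.1.1).pt q) y.1.2 k n := by
  have t := h.tw _ y.2.1
  have key : ∀ (u : Sec X.I (pC s.bg)) x, Pw (σ.P y.1.1).bg ((σ.P y.1.1).pt q) y.1.2 u.1 x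
      (s.bg.F.val k _ (Tc σ k q (σ.pt k y) (Mod61.ofV _ _ _ u.1)) x) := fun u x =>
    let ⟨a, b, c⟩ := (h.pw k hk q y u.1 (Mod61.Hs_sec t.sup u)).2.2 x _ rfl
    ⟨a, b, c⟩
  rw [← h.bg_eq _ y.2.1] at key ⊢
  refine ⟨cj t (A := full (bg σ y.1.1) y.1.2) (Tc σ k q (σ.pt k y)),
    sy_cj t (h.op y).2 (h.gainL k hk q y), f.conj _ _, fun u x => ?_⟩
  rw [val_cj t (by omega)]
  exact key u x

/-- far out the base configuration is the limit -/
theorem bs_ev (h : σ.toFam.OK) (hβ : s.Cr σ.β) {t : T} (ht : t ∈ σ.Q) {i : N} {b : Bool}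
    {K : Nk (d.e (ty i)) (σ.P t).bg} (hK : K ∈ (σ.P t).nk i) (hb : K.Inf b) :
    ∀ᶠ x in nd _ b, At K.ψ (fz (σ.β i b)) (σ.bs t) x := by
  obtain ⟨K₀, h0, e⟩ := inf_site h ht hK hb
  have hb0 := (ng_inf e).1 hb
  rw [ng_ψ e]
  filter_upwards [ev_ψ K₀ hb0, base_ev h.site (g := fun j b x => (σ.β j b).Φ x.1) h0 hb0,
    eventually_all.2 fun a => base_ev h.site (g := fun j b => (fz (σ.β j b)).a a) h0 hb0]
    with x hx h1 h2
  refine ⟨fun a => ?_, h1.symm⟩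
  simp only [Cel.bs, S_nk h ht h0 hx]
  exact ((adm_base hβ).pa a _).trans (h2 a) |>.symm

end Crest.Agent.X212.Add68
end
end

-- ▼ part X212/Add68/Hv

/-!
# Row 212, SW-ADD (helper68): the cut-off functions on one side of a cut
-/

set_option autoImplicit false
set_option linter.unusedSectionVars false
noncomputable section
open scoped Manifold ContDiff Topology InnerProductSpace
open MeasureTheory Set Function Filter

namespace Crest.Agent.X212.Add68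
open An An.Pre Sob92 Cyf70 Sw Sw.En3 Map77.S Pb50 Cut71
open M (Mf pm)
open Nd18 (Dp Jv not_Dp)
open Real (smoothTransition)

/-- the profiles -/
def pr (b : Bool) (t : ℝ) : ℝ :=
  if b then Real.cos (Real.pi / 2 * smoothTransition (t + 1 / 2))
  else Real.sin (Real.pi / 2 * smoothTransition (t + 1 / 2))

section pr
variable {b : Bool} {t : ℝ}

theorem pr_sq (t : ℝ) : pr true t * pr true t + pr false t * pr false t = 1 := by
  simp only [pr, if_true, Bool.false_eq_true, if_false, ← sq, Real.cos_sq_add_sin_sq]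

theorem pr_lo (h : pm b * t ≤ -(1 / 2)) : pr b t = 1 ∧ pr (!b) t = 0 := by
  cases b <;> simp only [pm, if_true, Bool.false_eq_true, if_false] at h
  · simp [-one_div, pr, smoothTransition.one_of_one_le (show 1 ≤ t + 1 / 2 by linarith)]
  · simp [-one_div, pr, smoothTransition.zero_of_nonpos (show t + 1 / 2 ≤ 0 by linarith)]

theorem pr_eq {t' : ℝ} (h : pm b * t ≤ -(1 / 2)) (h' : pm b * t' ≤ -(1 / 2)) (c : Bool) :
    pr c t = pr c t' := by
  by_cases e : c = b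
  · rw [e, (pr_lo h).1, (pr_lo h').1]
  · rw [Bool.eq_not_of_ne e, (pr_lo h).2, (pr_lo h').2]

theorem pr_ne (h : pr b t ≠ 0) : pm b * t < 1 / 2 := lt_of_not_ge fun k => h (by
  have := (pr_lo (b := !b) (t := t) (by rw [pm_not]; linarith)).2
  rwa [Bool.not_not] at this)

theorem pr_ne' (h : pr (!b) t ≠ 0) : -(1 / 2) < pm b * t := by
  have := pr_ne h
  rw [pm_not] at this
  linarith

theorem pr_mid (h : pr b t ≠ 0) (h' : pr (!b) t ≠ 0) : |t| < 1 := by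
  rw [← abs_pm b, abs_lt]
  exact ⟨by linarith [pr_ne' h'], by linarith [pr_ne h]⟩

end pr

theorem ts_le {M : Type} [TopologicalSpace M] {f g : M → ℝ} (hg : Continuous g) {c : ℝ}
    (h : ∀ x, f x ≠ 0 → g x < c) {x : M} (hx : x ∈ tsupport f) : g x ≤ c :=
  closure_minimal (fun x hx => (h x hx).le) (isClosed_le hg continuous_const) hx

variable {κ lam ν : Type} [Fintype κ] [Fintype lam] [Fintype ν] [DecidableEq ν]
  {X X' : Mf 4} {nc nc' : ℕ}

theorem cb_pr (e : En3 κ lam ν) (b : Bool) (c : ℝ) : e.D.Z.Cb fun x => pr b (x.2 + c) := by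
  have h := cb_st (F := e.D.F.toPre) (s := true) (-(c + 1 / 2))
  have h1 : ContDiff ℝ ∞ fun r => if b then Real.cos (Real.pi / 2 * r)
      else Real.sin (Real.pi / 2 * r) := by
    cases b <;> simp only [if_true, Bool.false_eq_true, if_false] <;> fun_prop
  have h2 := Cb_nem h1 h
  simp only [pm, if_true, one_mul, sub_neg_eq_add, ← add_assoc] at h2
  exact h2

theorem cb_tm {e : En3 κ lam ν} {b : Bg X.I X.M κ lam ν nc} (K : Nk e b) {h : ℝ → ℝ}
    (hc : e.D.Z.Cb fun x => h x.2) {c : ℝ} (hz : ∀ t ∉ Dp K.p K.q (1 / 2), h t = c) :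
    b.F.Cb fun x => h (K.tm x) := by
  obtain ⟨C, hC⟩ := Cb_sub hc (Cb_const c)
  have h1 := K.CBs_push one_half_pos hC fun z k => sub_eq_zero.2 (hz _ k)
  have h2 := K.push_time (h := fun t => h t - c) one_half_pos fun t k => sub_eq_zero.2 (hz _ k)
  have h3 := Cb_add ⟨_, (congrArg (b.F.CBs · _) h2).mp h1⟩ (Cb_const (F := b.F.toPre) c)
  exact (congrArg b.F.Cb (funext fun x => sub_add_cancel _ _)).mp h3

theorem cb_glue {X1 X2 : Mf 4} {ι : Type} [Fintype ι] {F : An.Fr X.I X.M ι} {F1 : An.Fr X1.I X1.M ι}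
    {F2 : An.Fr X2.I X2.M ι} {φ1 φ2} (h1 : Iso F1.toPre F.toPre φ1) (h2 : Iso F2.toPre F.toPre φ2)
    (cov : φ1.target ∪ φ2.target = univ) {f : X.M → ℝ} {f1 f2}
    (e1 : ∀ x ∈ φ1.source, f (φ1 x) = f1 x) (e2 : ∀ x ∈ φ2.source, f (φ2 x) = f2 x)
    (c1 : F1.Cb f1) (c2 : F2.Cb f2) : F.Cb f := by
  have key : ∀ {X1 : Mf 4} {F1 : An.Fr X1.I X1.M ι} {φ1}, Iso F1.toPre F.toPre φ1 → ∀ {f1},
      (∀ x ∈ φ1.source, f (φ1 x) = f1 x) → F1.Cb f1 → ∃ C : ℕ → ℝ, ∀ x ∈ φ1.target,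
        ContMDiffAt X.I 𝓘(ℝ, ℝ) ∞ f x ∧ ∀ w, ‖F.Dw w f x‖ ≤ C w.length := by
    intro X1 F1 φ1 h1 f1 e1 ⟨C, hC⟩
    refine ⟨C, fun x hx => ?_⟩
    have r := Pj41.fRel_of_iso (iso_symm h1)
    have ev : ∀ᶠ y in 𝓝 x, f y = f1 (φ1.symm y) := (φ1.open_target.eventually_mem hx).mono
      fun y hy => by rw [← e1 _ (φ1.map_target hy), φ1.right_inv hy]
    exact ⟨(r.sm hx (hC.1 _)).congr_of_eventuallyEq ev, fun w =>
      (r.Dw hx w ev).symm ▸ hC.2 _ w le_rfl _⟩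
  obtain ⟨C1, k1⟩ := key h1 e1 c1
  obtain ⟨C2, k2⟩ := key h2 e2 c2
  have cv : ∀ x, x ∈ φ1.target ∨ x ∈ φ2.target := fun x => (cov ▸ mem_univ x : x ∈ _ ∪ _)
  exact Cb_of_bdd (fun x => (cv x).elim (fun h => (k1 x h).1) fun h => (k2 x h).1) fun w =>
    ⟨max (C1 w.length) (C2 w.length), fun x => (cv x).elim
      (fun h => ((k1 x h).2 w).trans (le_max_left _ _)) fun h =>
        ((k2 x h).2 w).trans (le_max_right _ _)⟩

section sh
variable {e : En3 κ lam ν} {b : Bg X.I X.M κ lam ν nc} (K : Nk e b) (δ : ℝ)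

/-- the neck with shifted time -/
def shK : OpenPartialHomeomorph e.Z.M X.M := (sH e δ).toOpenPartialHomeomorph.trans K.ψ

theorem shK_lit : Bg.Lit (XL := e.Z) e.cyl b (shK K δ) := lit_trans (sH_lit δ) (nk_lit K) rfl rfl

theorem shK_src {x : e.Y.M × ℝ} (h : x.2 + δ ∈ K.J) : x ∈ (shK K δ).source :=
  ⟨trivial, K.mem_src.2 h⟩

theorem shK_tgt {x : X.M} (h : x ∈ K.ψ.target) : x ∈ (shK K δ).target := ⟨h, trivial⟩

theorem shK_apply (x : e.Y.M × ℝ) : shK K δ x = K.ψ (x.1, x.2 + δ) := rfl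

theorem nk_eq {x : X.M} (h : x ∈ K.ψ.target) : x = K.ψ ((K.ψ.symm x).1, K.tm x) := by
  rw [← K.snd_symm h, K.ψ.right_inv h]

end sh

variable {d : Dt κ lam ν} [Fintype d.𝓔] {Sl : Type} [Fintype Sl]

/-- one side of a cut at the time `τ` -/
structure Hv (P : PcS d Sl X nc) (P' : PcS d Sl X' nc') (ε : d.𝓔) (a a' : Sl) (b : Bool)
    (φ : OpenPartialHomeomorph X'.M X.M) (δ : ℝ) (O : d.𝓔 × Sl → Prop) (π : d.𝓔 × Sl → Sl)
    (K : Nk (d.e ε) P.bg) (K' : Nk (d.e ε) P'.bg) (τ : ℝ) : Prop where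
  ok : P.OK
  ok' : P'.OK
  H : ∃ r cc J, Half P P' ε a a' b φ δ r O π cc J
  hK : P.nk (ε, a) = some K
  hK' : P'.nk (ε, a') = some K'
  w1 : ∀ a ∈ K.p, a + 1 ≤ τ
  w2 : ∀ a ∈ K.q, τ + 1 ≤ a

namespace Hv
variable {P : PcS d Sl X nc} {P' : PcS d Sl X' nc'} {ε : d.𝓔} {a a' : Sl} {b : Bool}
  {φ : OpenPartialHomeomorph X'.M X.M} {δ : ℝ} {O : d.𝓔 × Sl → Prop} {π : d.𝓔 × Sl → Sl}
  {K : Nk (d.e ε) P.bg} {K' : Nk (d.e ε) P'.bg} {τ t : ℝ} {x : X'.M} {T : X.M → ℝ}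
  (h : Hv P P' ε a a' b φ δ O π K K' τ)
include h

theorem lit : P'.bg.Lit P.bg φ := h.H.choose_spec.choose_spec.choose_spec.lit

theorem nk : K'.Inf b ∧ (if b then K.p = K'.p.map (· + δ) else K.q = K'.q.map (· + δ)) ∧
    ∀ x, x ∈ φ.source ↔ (K'.tm x ∈ K'.J → K'.tm x + δ ∈ K.J) :=
  let ⟨_, _, _, H⟩ := h.H
  let k := half_nk H h.hK h.hK'
  ⟨k.1, k.2.1, k.2.2.1⟩

theorem inf' (k : K.Inf (!b)) : K'.Inf (!b) := by
  have h2 := h.nk.2.1
  cases b
  · exact Option.map_eq_none_iff.1 ((show K.q = _ from h2).symm.trans k)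
  · exact Option.map_eq_none_iff.1 ((show K.p = _ from h2).symm.trans k)

theorem mid (k : |t - τ| < 1) : t ∈ K.J :=
  ⟨fun a ha => by linarith [h.w1 a ha, (abs_lt.1 k).1],
    fun a ha => by linarith [h.w2 a ha, (abs_lt.1 k).2]⟩

theorem lo {D : ℝ} (k : (∃ a, K'.p = some a ∧ t ≤ a + D) ∨ ∃ a, K'.q = some a ∧ a - D ≤ t) :
    pm b * (t + δ - τ) ≤ D - 1 := by
  obtain ⟨h1, h2, -⟩ := h.nk
  cases b <;> simp only [pm, Nk.Inf, if_true, Bool.false_eq_true, if_false] at h1 h2 ⊢ <;>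
    rcases k with ⟨a, e, k⟩ | ⟨a, e, k⟩
  · simp [e] at h1
  · linarith [h.w2 (a + δ) (by simp [h2, e])]
  · linarith [h.w1 (a + δ) (by simp [h2, e])]
  · simp [e] at h1

theorem lo' (k : t ∉ K'.J) : pm b * (t + δ - τ) ≤ -1 := by
  have := h.lo (D := 0) (t := t) (by
    by_contra e
    push Not at e
    exact k ⟨fun a ha => by simpa using e.1 a ha, fun a ha => by simpa using e.2 a ha⟩)
  linarith

theorem fw (k : t ∈ K'.J) (k' : pm b * (t + δ - τ) < 1) : t + δ ∈ K.J := by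
  obtain ⟨-, h2, -⟩ := h.nk
  cases b <;> simp only [pm, if_true, Bool.false_eq_true, if_false] at h2 k'
  · refine ⟨fun a ha => by linarith [h.w1 a ha], fun a ha => ?_⟩
    obtain ⟨a', h3, rfl⟩ := Option.mem_map.1 (h2 ▸ ha)
    linarith [k.2 a' h3]
  · refine ⟨fun a ha => ?_, fun a ha => by linarith [h.w2 a ha]⟩
    obtain ⟨a', h3, rfl⟩ := Option.mem_map.1 (h2 ▸ ha)
    linarith [k.1 a' h3]

theorem cb' (c : Bool) : P'.bg.F.Cb fun x => pr c (K'.tm x + δ - τ) :=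
  cb_tm K' (h := fun t => pr c (t + δ - τ)) (by simpa only [add_sub_assoc] using cb_pr _ c (δ - τ))
    (c := pr c (-pm b)) fun t ht => pr_eq (b := b) (by
      linarith [h.lo (D := 1 / 2) (t := t) ((not_Dp ht).imp (fun ⟨a, e, k⟩ => ⟨a, e, k.le⟩)
        fun ⟨a, e, k⟩ => ⟨a, e, k.le⟩)]) (by rw [mul_neg, pm_sq]; norm_num) c

theorem sym (ht : t ∈ K.J) (y : (d.e ε).Y.M) : t + -δ ∈ K'.J ∧ K.ψ (y, t) ∈ φ.target ∧
    φ.symm (K.ψ (y, t)) = K'.ψ (y, t + -δ) := by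
  obtain ⟨_, _, _, H⟩ := h.H
  obtain ⟨h1, h2, h3⟩ := half_inv H h.hK h.hK' (t := t + -δ) (by simpa using ht) y
  rw [neg_add_cancel_right] at h3
  exact ⟨h1, h3 ▸ φ.map_source h2, by rw [← h3, φ.left_inv h2]⟩

theorem off (hx : x ∈ φ.source) (k : φ x ∉ K.ψ.target) : pm b * (K'.tm x + δ - τ) ≤ -1 :=
  h.lo' fun e => k (by
    have e1 := (h.nk.2.2 x).1 hx e
    have e2 := h.sym e1 (K'.ψ.symm x).1
    rw [add_neg_cancel_right, ← nk_eq K' ((tm_tgt K').2 e)] at e2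
    have e3 := φ.right_inv e2.2.1
    rw [e2.2.2] at e3
    exact e3 ▸ K.ψ.map_source (src K e1 _))

theorem far {y : X'.M} (k : pr b (K'.tm y + δ - τ) ≠ 0) (k' : pr (!b) (K'.tm y + δ - τ) ≠ 0) :
    ∃ z ∈ {z : (d.e ε).Y.M × ℝ | |z.2 - τ| < 1}, y = shK K' (-δ) z :=
  ⟨((K'.ψ.symm y).1, K'.tm y + δ), pr_mid k k', by
    rw [shK_apply, add_neg_cancel_right]
    exact nk_eq K' ((tm_tgt K').2 (by_contra fun e => by linarith [h.lo' e, pr_ne' k']))⟩

theorem lkC : Lk (X := (d.e ε).Z) (d.e ε).D.Z.toPre P'.bg.F.toPre (shK K' (-δ))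
    (fun x => pr (!b) (x.2 - τ)) fun x => pr (!b) (K'.tm x + δ - τ) where
  iso := (shK_lit K' _).iso
  cb := cb_pr _ _ _
  cb' := h.cb' _
  s x hx := shK_src K' _ (by_contra fun e => by
    have := ts_le (g := fun x : (d.e ε).Y.M × ℝ => pm (!b) * (x.2 - τ)) (by fun_prop)
      (fun _ => pr_ne) hx
    have e := h.lo' e
    rw [neg_add_cancel_right] at e
    rw [pm_not] at this
    linarith)
  s' x hx := shK_tgt K' _ ((tm_tgt K').2 (by_contra fun e => by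
    have := ts_le (g := fun x => pm (!b) * (K'.tm x + δ - τ)) (by have := K'.cont; fun_prop)
      (fun _ => pr_ne) hx
    rw [pm_not] at this
    linarith [h.lo' e]))
  eq x hx := by rw [shK_apply, K'.tm_ψ (x.1, x.2 + -δ) hx.2, neg_add_cancel_right]

variable (hT : ∀ x ∈ φ.source, ∀ c, pr c (T (φ x)) = pr c (K'.tm x + δ - τ))
include hT

theorem T_sym {x : X.M} (hx : x ∈ φ.target) (c : Bool) :
    pr c (T x) = pr c (K'.tm (φ.symm x) + δ - τ) := by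
  rw [← hT _ (φ.map_target hx), φ.right_inv hx]

theorem T_nk (ht : t ∈ K.J) (y : (d.e ε).Y.M) (c : Bool) : pr c (T (K.ψ (y, t))) = pr c (t - τ) := by
  obtain ⟨h1, h2, h3⟩ := h.sym ht y
  rw [h.T_sym hT h2, h3, K'.tm_ψ _ (src K' h1 y), neg_add_cancel_right]

theorem ev_off {x : X.M} (hx : x ∈ φ.target) (k : x ∉ K.ψ.target) :
    x ∉ tsupport fun y => pr (!b) (T y) := by
  have h1 := h.off (φ.map_target hx) (by rwa [φ.right_inv hx])
  have h2 : ContinuousAt (fun y => pm b * (K'.tm (φ.symm y) + δ - τ)) x :=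
    continuousAt_const.mul (((K'.cont.continuousAt.comp (φ.continuousAt_symm hx)).add
      continuousAt_const).sub continuousAt_const)
  refine notMem_tsupport_iff_eventuallyEq.2 ?_
  filter_upwards [h2.eventually_lt_const (show _ < -(1 / 2 : ℝ) by linarith),
    φ.open_target.eventually_mem hx] with y h3 h4
  rw [h.T_sym hT h4]
  exact (pr_lo h3.le).2

theorem lkA (cb : P.bg.F.Cb fun x => pr b (T x)) (hs : (tsupport fun x => pr b (T x)) ⊆ φ.target) :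
    Lk P.bg.F.toPre P'.bg.F.toPre φ.symm (fun x => pr b (T x)) fun x => pr b (K'.tm x + δ - τ) where
  iso := iso_symm h.lit.iso
  cb := cb
  cb' := h.cb' _
  s := hs
  s' x hx := (h.nk.2.2 x).2 fun e => h.fw e (by
    have := ts_le (g := fun x => pm b * (K'.tm x + δ - τ)) (by have := K'.cont; fun_prop)
      (fun _ => pr_ne) hx
    linarith)
  eq _ hx := h.T_sym hT hx b

theorem oth {j : d.𝓔 × Sl} (hj : O j) {K₁ : Nk (d.e j.1) P.bg} (h1 : K₁ ∈ P.nk j) {s : Bool}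
    (hs : K₁.Inf s) : ∃ K₁' ∈ P'.nk (j.1, π j), K₁'.Inf s ∧ ∀ᶠ x in nd _ s,
      (pr b (T (K₁.ψ x)) = 1 ∧ φ.symm (K₁.ψ x) = K₁'.ψ (x.1, x.2 + 0)) ∧
        pr (!b) (T (K₁.ψ x)) = 0 := by
  obtain ⟨_, _, _, H⟩ := h.H
  obtain ⟨-, ne, ⟨k, -⟩ | ⟨K₂, h2, K₁', h3, e1, e2, k1, k2⟩⟩ := H.oth j hj
  · obtain ⟨a, e1, e2⟩ := k K₁ h1
    cases s <;> simp [Nk.Inf, e1, e2] at hs
  obtain rfl := Option.mem_unique h1 h2
  have hs' : K₁'.Inf s := by rwa [Nk.Inf, ← e1, ← e2]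
  refine ⟨K₁', h3, hs', (ev_ψ K₁' hs').mono fun x hx => ?_⟩
  have m := K₁'.ψ.map_source hx
  have lo := pr_lo (b := b) (t := K'.tm (K₁'.ψ x) + δ - τ) (by
    linarith [h.lo' fun e => disjoint_left.1 (h.ok'.dj ne K₁' h3 K' h.hK') m ((tm_tgt K').2 e)])
  rw [k2 x hx, hT _ (k1 m), hT _ (k1 m), φ.left_inv (k1 m), add_zero]
  exact ⟨⟨lo.1, rfl⟩, lo.2⟩

end Hv

end Crest.Agent.X212.Add68
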