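import Crest.Agent.X212.Shf6.Main
import Crest.Agent.X212.Neck67.Glue
import Crest.Agent.X212.Neck67.Local
import Crest.Agent.X212.Neck67.Prod
import Crest.Agent.X212.Neck67.Inst
import Crest.Agent.X212.Gr93.Tr
import Crest.Agent.X212.Gr93.TrM
import Crest.Agent.X212.Sw21.Gc
import Crest.Agent.X212.Rw54.Gen
import Crest.Agent.X212.Rw54.Main
import Crest.Agent.X212.Gls64.Main
import Crest.Agent.X212.Add68.Main
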